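import Crest.Agent.X262.Ends.Pl
import Crest.Agent.X262.Vb37.Univ

/-!
# Row 262, road B, ENDS-RB (helper93): bounds for the moduli and for the rank

* `mb_cp`, `mb_on`, `mb_map`, `mb_eqv` : reparametrised conjugates of a line;
* `dim_le_add`, `eft_cfl`, `mb_dim`    : the field of moduli;
* `nsec_le`, `ks_le_nsec`, `ks_le_map`, `mb_rank` : the rank;
* `rbStmt : Ends.RbStmt`.
-/

set_option autoImplicit false
set_option linter.unusedSectionVars false
set_option linter.style.haveILetI false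

noncomputable section

namespace Crest.Agent.X262.Rb93

open Polynomial Matrix Crest.Agent.X277 Crest.Agent.X277.BD Crest.Agent.X262.Vb
  Crest.Agent.X262.Tree87 Crest.Agent.X262.Ends Crest.Agent.X262.Vb37
open Crest.Agent.X262.Bub96 (hv Tr)
open Crest.Agent.X262.Bub96.Tr (dot)
open IntermediateField (adjoin)
open Set (range)

variable {J : Type} [Fintype J] [DecidableEq J] {io : J → Type} [∀ j, Fintype (io j)]
  [∀ j, DecidableEq (io j)] {A : Type} [Fintype A] {K E L : Type} [Field K] [Algebra ℂ K]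
  [Field E] [Algebra ℂ E] [Field L] [Algebra ℂ L] {d : J → ℕ} {f : (j : J) → io j → K[X]}
  {g g' : (j : J) → io j → E[X]} {T : Tgt io A}

theorem pf_mpf (α : K →ₐ[ℂ] E) (f : (j : J) → io j → K[X]) (q : MvPolynomial (Vr io) ℂ) :
    pf (mpf (α : K →+* E) f) q = (pf f q).map (α : K →+* E) :=
  (MvPolynomial.comp_aeval_apply (fun v : Vr io => f v.1 v.2) (mapAlgHom α) q).symm

theorem hv_pf {q : MvPolynomial (Vr io) ℂ} {κ : J → ℕ} (h : MH q κ)
    (hg : ∀ j i, (g j i).natDegree ≤ d j) (p : Option E) :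
    hv (dot κ d) (pf g q) p = pv (pt d g p) q := by
  have h1 := ((MZ.of_MH h).sb hg).2 p
  rwa [show (∑ j, (κ j : ℤ) * d j) = (dot κ d : ℕ) by simp only [dot]; push_cast; rfl,
    ev_eq_hv] at h1

theorem hv_mob' {μ : Matrix (Fin 2) (Fin 2) E} {t t' : Option E} {u : E}
    (hu : μ *ᵥ hx t = u • hx t') {n : ℕ} {σ : E[X]} (hσ : σ.natDegree ≤ n) (a : E) :
    hv n (C a * mob n μ σ) t = a * u ^ n * hv n σ t' := by
  rw [hv_C_mul, hv_mob, hu, hev_smul, hev_hx hσ, mul_assoc]

theorem exists_img {μ : Matrix (Fin 2) (Fin 2) E} (hμ : μ.det ≠ 0) (t : Option E) :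
    ∃ (u : E) (t' : Option E), u ≠ 0 ∧ μ *ᵥ hx t = u • hx t' :=
  exists_hx fun h0 => hx_ne t (Matrix.eq_zero_of_mulVec_eq_zero hμ h0)

theorem pt_mob {μ : Matrix (Fin 2) (Fin 2) E} {c : J → E} (hg : ∀ j i, (g j i).natDegree ≤ d j)
    (h : ∀ j i, g' j i = C (c j) * mob (d j) μ (g j i)) {t t' : Option E} {u : E}
    (hu : μ *ᵥ hx t = u • hx t') : pt d g' t = fun j i => (c j * u ^ d j) * pt d g t' j i :=
  _root_.funext fun j => _root_.funext fun i => by
    simp only [pt]; rw [h, hv_mob' hu (hg j i)]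

/-- a multihomogeneous polynomial along a reparametrised curve -/
theorem pf_mob {μ : Matrix (Fin 2) (Fin 2) E} (hμ : μ.det ≠ 0) {c : J → E} (hc : ∀ j, c j ≠ 0)
    (hg : ∀ j i, (g j i).natDegree ≤ d j) (h : ∀ j i, g' j i = C (c j) * mob (d j) μ (g j i))
    {q : MvPolynomial (Vr io) ℂ} {κ : J → ℕ} (hq : MH q κ) (h0 : pf g q = 0) : pf g' q = 0 := by
  have := inf_of_alg E
  refine Polynomial.funext fun t => ?_
  obtain ⟨u, t', hu, e⟩ := exists_img hμ (some t)
  have h1 := hv_pf (g := g') (d := d) hq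
    (fun j i => h j i ▸ (natDegree_C_mul_le _ _).trans (natDegree_mob _ _ _)) (some t)
  rw [pt_mob hg h e, (MZ.of_MH hq).pv_scl fun j => mul_ne_zero (hc j) (pow_ne_zero _ hu),
    ← hv_pf hq hg, h0] at h1
  refine h1.trans ?_
  cases t' <;> simp [hv]

theorem mb_cp (hf : Cp d f) (h : Mb d f g) : Cp d g := by
  obtain ⟨β, μ, c, hμ, hc, h⟩ := h
  rw [show g = _ from _root_.funext fun j => _root_.funext (h j)]
  exact cp_mob (hf.map (β : K →+* E)) hμ hc

theorem mb_swP (hf : ∀ j i, (f j i).natDegree ≤ d j) (h : Mb d f g) : SwP f g := by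
  obtain ⟨β, μ, c, hμ, hc, h⟩ := h
  intro q κ hq h0
  refine pf_mob (g := mpf (β : K →+* E) f) hμ hc (fun j i => natDegree_map_le.trans (hf j i)) h hq ?_
  rw [pf_mpf, h0, Polynomial.map_zero]

theorem mb_on (hf : ∀ j i, (f j i).natDegree ≤ d j) (on : ∀ a, pf f (T.F a) = 0) (h : Mb d f g)
    (a : A) : pf g (T.F a) = 0 := mb_swP hf h _ _ (T.hom a) (on a)

theorem mb_map (h : Mb d f g) (α : E →ₐ[ℂ] L) : Mb d f (mpf (α : E →+* L) g) := by
  obtain ⟨β, μ, c, hμ, hc, h⟩ := h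
  refine ⟨α.comp β, μ.map (α : E →+* L), fun j => α (c j), ?_,
    fun j => (_root_.map_ne_zero α).2 (hc j), fun j i => ?_⟩
  · rw [← RingHom.mapMatrix_apply, ← RingHom.map_det]; exact (_root_.map_ne_zero _).2 hμ
  · simp only [mpf]
    rw [h, Polynomial.map_mul, map_C, mob_map, Polynomial.map_map]; rfl

/-- a reparametrised conjugate with points is equivalent to a conjugate with points -/
theorem mb_eqv (hf : Cp d f) (h : Mb d f g) {I : Type} (x : I → Option E) :
    ∃ (β : K →ₐ[ℂ] E) (x' : I → Option E),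
      Dat.Eqv (⟨mpf (β : K →+* E) f, x', hf.map _⟩ : Dat io d I E) ⟨g, x, mb_cp hf h⟩ := by
  obtain ⟨β, μ, c, hμ, hc, h'⟩ := h
  choose u x' _ hx' using fun q => exists_img hμ (x q)
  exact ⟨β, x', μ, c, hμ, hc, h', fun q => ⟨u q, hx' q⟩⟩

/-! ### the field of moduli -/

open scoped IntermediateField.algebraAdjoinAdjoin in
theorem dim_le_add [Algebra.EssFiniteType ℂ K] (β : K →ₐ[ℂ] E) {n : ℕ} (x : Fin n → E)
    (S : IntermediateField ℂ E) [Algebra.EssFiniteType ℂ S]
    (h : S ≤ adjoin ℂ (range β ∪ range x)) : dim ℂ S ≤ dim ℂ K + n := by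
  letI := β.toRingHom.toAlgebra
  haveI : IsScalarTower ℂ K E := IsScalarTower.of_algebraMap_eq fun c => (β.commutes c).symm
  have h1 : S ≤ (adjoin K (range x)).restrictScalars ℂ := h.trans (IntermediateField.adjoin_le_iff.2 (by
    rintro _ (⟨y, rfl⟩ | hy)
    · exact (adjoin K _).algebraMap_mem y
    · exact IntermediateField.subset_adjoin K _ hy))
  have h2 : Algebra.trdeg ℂ S ≤ Algebra.trdeg ℂ (adjoin K (range x)) :=
    trdeg_le_of_injective (IntermediateField.inclusion h1) (IntermediateField.inclusion_injective h1)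
  have h3 : Algebra.trdeg K (adjoin K (range x)) ≤ n := by
    have : FaithfulSMul K (Algebra.adjoin K (range x)) :=
      (faithfulSMul_iff_algebraMap_injective _ _).2 (algebraMap K _).injective
    rw [← trdeg_add_eq K (Algebra.adjoin K (range x)), trdeg_eq_zero (R := Algebra.adjoin K _),
      add_zero, Algebra.adjoin_range_eq_range_aeval]
    exact (trdeg_le_of_surjective _ (MvPolynomial.aeval x).rangeRestrict_surjective).trans_eq
      (by simp [MvPolynomial.trdeg_of_isDomain])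
  rw [← trdeg_add_eq ℂ K (A := adjoin K (range x)), trdeg_eq_dim, trdeg_eq_dim] at h2
  exact_mod_cast h2.trans (add_le_add_right h3 _)

theorem eft_cfl (g : (j : J) → io j → E[X]) : Algebra.EssFiniteType ℂ (cfl g) := by
  have h1 : (⋃ v : Vr io, range (g v.1 v.2).coeff).Finite :=
    Set.finite_iUnion fun v => (g v.1 v.2).finite_range_coeff
  refine IntermediateField.essFiniteType_iff.2 (IntermediateField.fg_adjoin_of_finite
    ((h1.image2 (· / ·) h1).subset ?_))
  rintro _ ⟨j, i, i', l, l', rfl⟩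
  exact ⟨_, Set.mem_iUnion.2 ⟨⟨j, i⟩, l, rfl⟩, _, Set.mem_iUnion.2 ⟨⟨j, i'⟩, l', rfl⟩, rfl⟩

theorem mb_dim [Algebra.EssFiniteType ℂ K] (hf : Cp d f) (h : Mb d f g) :
    dim ℂ (cfl g) ≤ dim ℂ K + 3 := by
  obtain ⟨β, x', e⟩ := mb_eqv hf h ![none, some 0, some 1]
  have := eft_cfl g
  refine dim_le_add β (fun q => (x' q).getD 0) _ (le_trans ?_
    ((crd_le_of_eqv (eqv_symm e) (a := 0) (b := 1) (c := 2) ⟨rfl, rfl, rfl⟩).trans ?_))
  · exact IntermediateField.adjoin.mono _ _ _ fun t ht => Or.inl ht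
  · refine IntermediateField.adjoin.mono _ _ _ ?_
    rintro _ (⟨j, i, i', l, l', rfl⟩ | ⟨q, hq⟩)
    · exact Or.inl ⟨(f j i).coeff l / (f j i').coeff l', by simp [mpf]⟩
    · exact Or.inr ⟨q, by simp only at hq; simp [hq]⟩

/-! ### the rank -/

theorem mem_nsec {σ : A → E[X]} : σ ∈ nsec T d g ↔ (∀ a, (σ a).natDegree ≤ dot (T.k a) d) ∧
    ∀ p, (fun a => hv (dot (T.k a) d) (σ a) p) ∈ T.Nm (pt d g p) := by
  rw [nsec, Tree87.mem_Sec]
  exact and_congr (forall_congr' fun _ => DL_nat) (forall_congr' fun p => by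
    rw [show evv (fun a => (dot (T.k a) d : ℤ)) p σ = fun a => hv (dot (T.k a) d) (σ a) p from
      _root_.funext fun a => ev_eq_hv _ _ _]; rfl)

theorem nsec_le {I : Type} {ξ η : Dat io d I E} (h : ξ.Eqv η) :
    Module.finrank E (nsec T d ξ.f) ≤ Module.finrank E (nsec T d η.f) := by
  have := inf_of_alg E
  obtain ⟨μ, c, hμ, hc, hf, -⟩ := h
  let φ : (A → E[X]) →ₗ[E] (A → E[X]) :=
    { toFun := fun σ a => C (∏ j, c j ^ T.k a j) * mob (dot (T.k a) d) μ (σ a)
      map_add' := fun σ σ' => _root_.funext fun a => by simp [mob_add, mul_add]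
      map_smul' := fun s σ => _root_.funext fun a => by
        simp only [Pi.smul_apply, smul_eq_C_mul, mob_C_mul, RingHom.id_apply, mul_left_comm] }
  have h1 : ∀ σ ∈ nsec T d ξ.f, φ σ ∈ nsec T d η.f := fun σ hσ => by
    obtain ⟨h1, h2⟩ := mem_nsec.1 hσ
    refine mem_nsec.2 ⟨fun a => (natDegree_C_mul_le _ _).trans (natDegree_mob _ _ _), fun t => ?_⟩
    obtain ⟨u, t', hu, e⟩ := exists_img hμ t
    rw [pt_mob ξ.cp.1 hf e, Nm_eq,
      (hz_jac T).pR_scl fun j => mul_ne_zero (hc j) (pow_ne_zero _ hu), ← Nm_eq]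
    refine mem_sclS.2 ⟨_, h2 t', _root_.funext fun a => ?_⟩
    rw [prod_gau]
    exact (hv_mob' e (h1 a) _).symm
  have : Module.Finite E (nsec T d η.f) := finite_Sec _ _
  refine LinearMap.finrank_le_finrank_of_injective (f := φ.restrict h1)
    ((injective_iff_map_eq_zero _).2 fun σ hσ => Subtype.ext (_root_.funext fun a => ?_))
  have h2 : C (∏ j, c j ^ T.k a j) * mob (dot (T.k a) d) μ (σ.1 a) = 0 :=
    congrFun (congrArg Subtype.val hσ) a
  have h3 := congrArg (mob (dot (T.k a) d) μ⁻¹)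
    ((mul_eq_zero.1 h2).resolve_left (C_ne_zero.2 (chr_ne' hc _)))
  rw [mob_mob, mul_nonsing_inv μ (Ne.isUnit hμ), mob_one ((mem_nsec.1 σ.2).1 a)] at h3
  simpa [mob] using h3

theorem coeff_pol (u : Cx T d → E) (a : A) (l : Fin (dot (T.k a) d + 1)) :
    (pol u a).coeff l = u ⟨a, l⟩ := by
  simp [pol, coeff_monomial, Fin.val_inj]

theorem natDegree_pol (u : Cx T d → E) (a : A) : (pol u a).natDegree ≤ dot (T.k a) d :=
  natDegree_sum_le_of_forall_le _ _ fun l _ =>
    (natDegree_monomial_le _).trans (Nat.lt_succ_iff.mp l.2)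

theorem pol_map (α : E →+* L) (u : Cx T d → E) (a : A) :
    pol (fun x => α (u x)) a = (pol u a).map α := by
  simp [pol, Polynomial.map_sum]

/-- `pol` as a linear map -/
def polL (T : Tgt io A) (d : J → ℕ) (E : Type) [Field E] : (Cx T d → E) →ₗ[E] (A → E[X]) where
  toFun := pol
  map_add' u u' := _root_.funext fun a => by simp [pol, Finset.sum_add_distrib]
  map_smul' s u := _root_.funext fun a => by simp [pol, Finset.smul_sum, smul_monomial]

theorem pol_inj : Function.Injective (pol : (Cx T d → E) → A → E[X]) := fun u u' h =>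
  _root_.funext fun x => by
    rw [← coeff_pol u x.1 x.2, ← coeff_pol u' x.1 x.2, h]

theorem pol_mem [IsAlgClosed E] {S : Syz T} {c : ℕ} (hS : GoodS S c d) (cp : Cp d g)
    (on : ∀ a, pf g (T.F a) = 0) {u : Cx T d → E} (hu : u ∈ KS S d g) : pol u ∈ nsec T d g := by
  have ok : (Tr.leaf d g).OK := ⟨cp.1, cp_hv cp⟩
  have hO : ∀ x, T.On ((Tr.leaf d g).ev x) := fun x a => by
    refine (hv_pf (T.hom a) cp.1 x.2).symm.trans ?_
    rw [on]
    rcases x with ⟨_, _ | x⟩ <;> simp [hv]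
  refine mem_nsec.2 ⟨natDegree_pol u, fun p => (hS E _ ok rfl hO ((), p)).2 _ fun b => ?_⟩
  have h1 := congrFun ((hm_sb (hz_syz S) ok).vv_mul (s := fun _ => pol u)
    (fun _ a => DL_nat.2 (natDegree_pol u a)) ((), p)) b
  rw [vv_eq_val] at h1
  refine Eq.trans (Finset.sum_congr rfl fun a _ => ?_) (h1.symm.trans ?_)
  · rw [vv_eq_val]; rfl
  · change hv _ (∑ a, pf g (S.ρ b a) * pol u a) _ = 0
    rw [hu b]
    cases p <;> simp [hv]

theorem ks_le_nsec [IsAlgClosed E] {S : Syz T} {c : ℕ} (hS : GoodS S c d) (cp : Cp d g)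
    (on : ∀ a, pf g (T.F a) = 0) :
    Module.finrank E (KS S d g) ≤ Module.finrank E (nsec T d g) := by
  have : Module.Finite E (nsec T d g) := finite_Sec _ _
  exact LinearMap.finrank_le_finrank_of_injective
    (f := (polL T d E).restrict fun _ hu => pol_mem hS cp on hu)
    fun _ _ h => Subtype.ext (pol_inj (congrArg Subtype.val h))

theorem mapS_ks_le (S : Syz T) (α : E →ₐ[ℂ] L) :
    mapS α (KS S d g) ≤ KS S d (mpf (α : E →+* L) g) := by
  rw [mapS, Submodule.span_le]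
  rintro _ ⟨u, hu, rfl⟩ b
  have h1 := congrArg (Polynomial.map (α : E →+* L)) (hu b)
  rw [Polynomial.map_sum, Polynomial.map_zero] at h1
  refine Eq.trans (Finset.sum_congr rfl fun a _ => ?_) h1
  rw [Polynomial.map_mul, pf_mpf, ← pol_map]; rfl

theorem ks_le_map (S : Syz T) (α : E →ₐ[ℂ] L) :
    Module.finrank E (KS S d g) ≤ Module.finrank L (KS S d (mpf (α : E →+* L) g)) :=
  (finrank_mapS α _).symm.trans_le (Submodule.finrank_mono (mapS_ks_le S α))

theorem mb_rank {S : Syz T} {c n : ℕ} (hS : GoodS S c d) (hf : Cp d f)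
    (on : ∀ a, pf f (T.F a) = 0) (hR : Rk T d n f) (h : Mb d f g) :
    Module.finrank E (KS S d g) + n + 3 ≤ mdim io d 3 := by
  have key : ∀ (L : Type) [Field L] [Algebra ℂ L] [IsAlgClosed L] (α : E →ₐ[ℂ] L),
      Module.finrank E (KS S d g) + n + 3 ≤ mdim io d 3 := fun L _ _ _ α => by
    have h1 := mb_map h α
    obtain ⟨β, x', e⟩ := mb_eqv hf h1 (fun _ : Unit => none)
    have h2 := (ks_le_map S α).trans (ks_le_nsec hS (mb_cp hf h1) (mb_on hf.1 on h1))
    have h3 := nsec_le (T := T) (eqv_symm e)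
    dsimp only at h3
    have h4 := hR L β
    exact le_trans (Nat.add_le_add_right (Nat.add_le_add_right (h2.trans h3) _) _) h4
  exact key _ (IsScalarTower.toAlgHom ℂ E (AlgebraicClosure E))

/-- **RB** -/
theorem rbStmt : RbStmt := by
  intro J _ _ io _ _ A _ T c d ν j₁ K _ _ _ f S hS hL hR E _ _ g h
  exact ⟨mb_cp hL.cp h, mb_on hL.cp.1 hL.on h, hL.dm ▸ mb_dim hL.cp h,
    mb_rank hS hL.cp hL.on hR h⟩

end Crest.Agent.X262.Rb93
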